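import Vale.Agent.Lib.P125.Main

/-!
# P125 : nontrivial Markov type implies an equivalent uniformly smooth norm

Second formulation: Markov type through finite symmetric weights is replaced by plain quantifiers
over matrices, and uniform smoothness is stated in the epsilon-delta form.
-/

namespace Vale.Agent.Results.P125.EpsilonDelta

open Finset

/-- `X` satisfies the Markov type `p` inequality with constant `K`: for every finite set `S`,
every probability vector `π` on `S` and every stochastic matrix `P` with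
`π i * P i j = π j * P j i`, every `f : S → X` and every integer `t ≥ 1`,
`E ‖f (Z_t) - f (Z_0)‖ ^ p ≤ K ^ p * t * E ‖f (Z_1) - f (Z_0)‖ ^ p`, where `Z` is the chain
with initial distribution `π` and transition matrix `P`. -/
def MarkovTypeIneq (X : Type*) [NormedAddCommGroup X] (p K : ℝ) : Prop :=
  ∀ (S : Type) [Fintype S] [DecidableEq S] (P : Matrix S S ℝ) (π : S → ℝ),
    (∀ i, 0 ≤ π i) → ∑ i, π i = 1 → (∀ i j, 0 ≤ P i j) → (∀ i, ∑ j, P i j = 1) →
    (∀ i j, π i * P i j = π j * P j i) → ∀ (f : S → X) (t : ℕ), 1 ≤ t →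
      ∑ i, ∑ j, π i * (P ^ t) i j * ‖f j - f i‖ ^ p ≤
        K ^ p * t * ∑ i, ∑ j, π i * P i j * ‖f j - f i‖ ^ p

/-- If the real Banach space `X` has Markov type `p` for some `p > 1`, then there is a norm `N`
on `X` with `a ‖x‖ ≤ N x ≤ b ‖x‖`, `a, b > 0`, which is uniformly smooth: for every `ε > 0` there
is `δ > 0` with `N (x + y) + N (x - y) ≤ 2 + ε * N y` whenever `N x = 1` and `N y ≤ δ`. -/
theorem result : ∀ (X : Type*) [NormedAddCommGroup X] [NormedSpace ℝ X] [CompleteSpace X],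
    (∃ p K : ℝ, 1 < p ∧ 0 ≤ K ∧ MarkovTypeIneq X p K) →
      ∃ N : Seminorm ℝ X, (∃ a b : ℝ, 0 < a ∧ 0 < b ∧ ∀ x, a * ‖x‖ ≤ N x ∧ N x ≤ b * ‖x‖) ∧
        ∀ ε : ℝ, 0 < ε → ∃ δ : ℝ, 0 < δ ∧ ∀ x y : X, N x = 1 → N y ≤ δ →
          N (x + y) + N (x - y) ≤ 2 + ε * N y := by
  intro X _ _ _ ⟨p, K, hp, hK, h⟩
  have hMT : P125.MT p K (fun x : X => ‖x‖) := by
    intro S _ _ P μ hP f t ht
    exact h S P μ hP.mu_nonneg hP.mu_sum hP.P_nonneg hP.P_sum hP.rev f t ht
  obtain ⟨N, h1, h2, r, hr, c, hc⟩ := P125.renorming hp hK hMT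
  refine ⟨N, h1, fun ε hε => ?_⟩
  have h3 := (Metric.tendsto_nhdsWithin_nhds.1 h2) (ε / 2) (half_pos hε)
  obtain ⟨δ, hδ, h4⟩ := h3
  refine ⟨δ / 2, half_pos hδ, fun x y hx hy => ?_⟩
  rcases (apply_nonneg N y).eq_or_lt with h0 | h0
  · have h5 : N (x + y) ≤ N x + N y := map_add_le_add N x y
    have h6 : N (x - y) ≤ N x + N y := map_sub_le_add N x y
    rw [← h0] at h5 h6 ⊢
    linarith
  · have h5 := h4 (x := N y) h0 (by
      rw [Real.dist_eq, sub_zero, abs_of_pos h0]; linarith)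
    rw [Real.dist_eq, sub_zero] at h5
    have h6 : P125.smoothMod N (N y) / N y < ε / 2 := (le_abs_self _).trans_lt h5
    rw [div_lt_iff₀ h0] at h6
    have hu : N ((N y)⁻¹ • y) = 1 := by
      rw [map_smul_eq_mul, norm_inv, Real.norm_of_nonneg h0.le, inv_mul_cancel₀ h0.ne']
    have hy' : N y • ((N y)⁻¹ • y) = y := by rw [smul_smul, mul_inv_cancel₀ h0.ne', one_smul]
    have h7 : (N (x + y) + N (x - y)) / 2 - 1 ≤ P125.smoothMod N (N y) := by
      refine le_csSup ?_ ⟨x, (N y)⁻¹ • y, hx, hu, by rw [hy']⟩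
      refine ⟨N y, ?_⟩
      rintro s ⟨a, b, ha, hb, rfl⟩
      have h8 : N (a + N y • b) ≤ N a + N (N y • b) := map_add_le_add N _ _
      have h9 : N (a - N y • b) ≤ N a + N (N y • b) := map_sub_le_add N _ _
      rw [map_smul_eq_mul, Real.norm_of_nonneg h0.le, ha, hb] at h8 h9
      linarith
    linarith

end Vale.Agent.Results.P125.EpsilonDelta
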