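import Vale.Agent.Lib.P125.PathSum

/-!
# P125, Q1: a real Banach space with nontrivial Markov type has an equivalent uniformly smooth norm
-/

namespace Vale.Agent.Results.P125.LiteralPaths

/-- Let `X` be a real Banach space with Markov type `p` for some `p > 1`: there is `K < ∞` such that
for every chain `z 0, z 1, ...` on a finite set `{0, ..., n - 1}` with initial distribution `π` and
transition matrix `P` which is stationary and reversible (`π i * P i j = π j * P j i`), every `f`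
from the state space to `X` and every integer `t ≥ 1`,
`E ‖f (z t) - f (z 0)‖ ^ p ≤ K ^ p * t * E ‖f (z 1) - f (z 0)‖ ^ p`; here a trajectory
`z 0, ..., z t` has probability `π (z 0) * ∏ k < t, P (z k) (z (k + 1))`.

Then there is a norm `N` on `X` (subadditive and absolutely homogeneous), equivalent to `‖ ‖`
(`a ‖x‖ ≤ N x ≤ b ‖x‖` with `a, b > 0`), which is uniformly smooth: for every `ε > 0` there is
`τ₀ > 0` with `ρ τ ≤ ε * τ` for `0 < τ ≤ τ₀`; it is even uniformly smooth of power type `r` for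
some `r > 1`: `ρ τ ≤ C * τ ^ r` for all `τ > 0`. Here `ρ τ` is the supremum of
`(N (x + τ y) + N (x - τ y)) / 2 - 1` over `N x = N y = 1`. -/
theorem result (X : Type*) [NormedAddCommGroup X] [NormedSpace ℝ X] [CompleteSpace X]
    (markovType : ∃ p : ℝ, 1 < p ∧ ∃ K : ℝ, 0 ≤ K ∧
      ∀ (n : ℕ) (π : Fin n → ℝ) (P : Fin n → Fin n → ℝ),
        (∀ i, 0 ≤ π i) → ∑ i, π i = 1 → (∀ i j, 0 ≤ P i j) → (∀ i, ∑ j, P i j = 1) →
        (∀ i j, π i * P i j = π j * P j i) →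
        ∀ (f : Fin n → X) (t : ℕ), 1 ≤ t →
          ∑ z : Fin (t + 1) → Fin n, π (z 0) * (∏ k : Fin t, P (z k.castSucc) (z k.succ)) *
              ‖f (z (Fin.last t)) - f (z 0)‖ ^ p ≤
            K ^ p * t * ∑ i, ∑ j, π i * P i j * ‖f j - f i‖ ^ p) :
    ∃ N : X → ℝ,
      (∀ x y : X, N (x + y) ≤ N x + N y) ∧
      (∀ (c : ℝ) (x : X), N (c • x) = |c| * N x) ∧
      (∃ a b : ℝ, 0 < a ∧ 0 < b ∧ ∀ x : X, a * ‖x‖ ≤ N x ∧ N x ≤ b * ‖x‖) ∧
      (∀ ε : ℝ, 0 < ε → ∃ τ₀ : ℝ, 0 < τ₀ ∧ ∀ τ : ℝ, 0 < τ → τ ≤ τ₀ →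
        ∀ x y : X, N x = 1 → N y = 1 → (N (x + τ • y) + N (x - τ • y)) / 2 - 1 ≤ ε * τ) ∧
      ∃ r C : ℝ, 1 < r ∧ ∀ τ : ℝ, 0 < τ →
        ∀ x y : X, N x = 1 → N y = 1 → (N (x + τ • y) + N (x - τ • y)) / 2 - 1 ≤ C * τ ^ r := by
  obtain ⟨p, hp, K, hK, h⟩ := markovType
  exact Vale.Agent.Lib.P125.PathSum.renorming_plain hp hK h

end Vale.Agent.Results.P125.LiteralPaths
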