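import Vale.Agent.Lib.P125.Main

/-!
# P125 : nontrivial Markov type implies an equivalent uniformly smooth norm

Full answer to Q1 (Naor 2012): every real normed (in particular Banach) space with Markov type `p`
for some `p > 1` admits an equivalent uniformly smooth norm.
-/

namespace Vale.Agent.Results.P125.MarkovSmooth

/-- `(P, π)` is a stationary reversible Markov chain on the finite set `S`: `π` is a probability
vector (the initial distribution), `P` a stochastic matrix, and `π i * P i j = π j * P j i`. -/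
structure IsStationaryReversible {S : Type} [Fintype S] (P : Matrix S S ℝ) (π : S → ℝ) : Prop where
  init_nonneg : ∀ i, 0 ≤ π i
  init_sum : ∑ i, π i = 1
  trans_nonneg : ∀ i j, 0 ≤ P i j
  trans_sum : ∀ i, ∑ j, P i j = 1
  reversible : ∀ i j, π i * P i j = π j * P j i

/-- `X` has Markov type `p`: there is `K` such that for every finite stationary reversible chain
`Z`, every `f : S → X` and every `t ≥ 1`,
`E ‖f (Z_t) - f (Z_0)‖ ^ p ≤ K ^ p * t * E ‖f (Z_1) - f (Z_0)‖ ^ p`.
(The joint law of `(Z_0, Z_t)` is `π i * (P ^ t) i j`.) -/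
def HasMarkovType (X : Type*) [NormedAddCommGroup X] (p : ℝ) : Prop :=
  ∃ K : ℝ, 0 ≤ K ∧ ∀ (S : Type) [Fintype S] [DecidableEq S] (P : Matrix S S ℝ) (π : S → ℝ),
    IsStationaryReversible P π → ∀ (f : S → X) (t : ℕ), 1 ≤ t →
      ∑ i, ∑ j, π i * (P ^ t) i j * ‖f j - f i‖ ^ p ≤
        K ^ p * t * ∑ i, ∑ j, π i * P i j * ‖f j - f i‖ ^ p

/-- The (semi)norm `N` is equivalent to the norm of `X` (hence it is a norm). -/
def IsEquivalentNorm {X : Type*} [NormedAddCommGroup X] [NormedSpace ℝ X] (N : Seminorm ℝ X) :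
    Prop :=
  ∃ a b : ℝ, 0 < a ∧ 0 < b ∧ ∀ x : X, a * ‖x‖ ≤ N x ∧ N x ≤ b * ‖x‖

/-- The modulus of smoothness of `N`,
`ρ(τ) = sup {(N (x + τ y) + N (x - τ y)) / 2 - 1 | N x = N y = 1}`. -/
noncomputable def modulusOfSmoothness {X : Type*} [AddCommGroup X] [Module ℝ X]
    (N : Seminorm ℝ X) (τ : ℝ) : ℝ :=
  sSup {s : ℝ | ∃ x y : X, N x = 1 ∧ N y = 1 ∧ s = (N (x + τ • y) + N (x - τ • y)) / 2 - 1}

/-- `N` is uniformly smooth: `ρ(τ) / τ → 0` as `τ → 0+`. -/
def IsUniformlySmooth {X : Type*} [AddCommGroup X] [Module ℝ X] (N : Seminorm ℝ X) : Prop :=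
  Filter.Tendsto (fun τ : ℝ => modulusOfSmoothness N τ / τ) (nhdsWithin 0 (Set.Ioi 0)) (nhds 0)

/-- Every real normed space (in particular every real Banach space) with Markov type `p` for some
`p > 1` has an equivalent norm which is uniformly smooth, indeed of power type `r` for some
`r > 1`. -/
theorem result : ∀ (X : Type*) [NormedAddCommGroup X] [NormedSpace ℝ X] (p : ℝ),
    1 < p → HasMarkovType X p →
      ∃ N : Seminorm ℝ X, IsEquivalentNorm N ∧ IsUniformlySmooth N ∧
        ∃ r C : ℝ, 1 < r ∧ ∀ τ : ℝ, 0 < τ → modulusOfSmoothness N τ ≤ C * τ ^ r := by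
  intro X _ _ p hp h
  obtain ⟨K, hK, h⟩ := h
  have hMT : P125.MT p K (fun x : X => ‖x‖) := by
    intro S _ _ P μ hP f t ht
    exact h S P μ ⟨hP.mu_nonneg, hP.mu_sum, hP.P_nonneg, hP.P_sum, hP.rev⟩ f t ht
  obtain ⟨N, h1, h2, r, hr, c, hc⟩ := P125.renorming hp hK hMT
  exact ⟨N, h1, h2, r, c, hr, hc⟩

end Vale.Agent.Results.P125.MarkovSmooth
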